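import Vale.Agent.P211.HK.LocSys
import Vale.Agent.P267.H158.B1

/-! P290 / H437, package SC-EXACT, part 1: on a simply connected manifold closed one-forms are
exact, in the languages of `P267.H158` (covector fields) and `P267.Statement` (`RForm`). -/

open Set Topology Manifold Filter
open scoped ContDiff
open Vale.Agent.P267 Vale.Agent.P267.H158 Vale.Agent.P211.HK Vale.Agent.P272.K

noncomputable section

namespace Vale.Agent.P290.H437

section

variable {E : Type*} [NormedAddCommGroup E] [NormedSpace ℝ E]
variable {X : Type*} [TopologicalSpace X] [ChartedSpace E X]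

/-- primitives form a local system -/
theorem locSys_prim [IsManifold 𝓘(ℝ, E) ∞ X] {θ : CovF E X} (h : LocExact θ) :
    LocSys (X := X) (F := fun _ => ℝ) (fun p s => PrimAt θ s p) where
  opn p s hs := hs.eventually
  uniq p s s' hs hs' he := by
    filter_upwards [hs.eventually_sub_eq hs'] with q hq
    rw [he, sub_self, sub_eq_zero] at hq
    exact hq
  clo p s s' hs hs' hf := by
    obtain ⟨q, hq, hq'⟩ := (hf.and_eventually (hs.eventually_sub_eq hs')).exists
    rw [hq, sub_self] at hq'
    exact (sub_eq_zero.1 hq'.symm)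
  loc p s s' hs he := hs.congr (he.mono fun _ h => h.symm)
  ext p := by
    obtain ⟨u, hu⟩ := h p
    refine ⟨{y | PrimAt θ u y}, hu.eventually, fun q hq v => ?_⟩
    refine ⟨fun y => u y + (v - u q), by simp, fun q' hq' => ?_⟩
    exact PrimAt.add_const hq' _

/-- **closed one-forms on a simply connected manifold are exact** -/
theorem exact_of_locExact [IsManifold 𝓘(ℝ, E) ∞ X] [SimplyConnectedSpace X] {θ : CovF E X}
    (h : LocExact θ) : Exact θ := by
  have : LocallyPathConnectedSpace X := ChartedSpace.locallyPathConnectedSpace E X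
  obtain ⟨p⟩ := (inferInstance : Nonempty X)
  obtain ⟨s, ⟨-, hs⟩, -⟩ := (locSys_prim h).existsUnique p 0
  exact ⟨s, hs⟩

end

section

variable {X : Type*} [TopologicalSpace X] [ChartedSpace (Cm 2) X]

theorem exactForm_of_closed [IsManifold 𝓘(ℝ, Cm 2) ∞ X] [SimplyConnectedSpace X] {a : RForm 1 X}
    (hs : SmoothForm a) (hc : ClosedForm a) : ExactForm a := by
  have h := exactForm_of_exact (exact_of_locExact (locExact_of_closed hs hc))
  rwa [toForm_toCov] at h

/-- `b₁ = 0` -/
theorem betti_zero [IsManifold 𝓘(ℝ, Cm 2) ∞ X] [SimplyConnectedSpace X] : BettiSucc X 0 0 := by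
  refine ⟨fun i => i.elim0, fun i => i.elim0, fun c hs hc => ⟨fun i => i.elim0, ?_, ?_⟩⟩
  · simpa using exactForm_of_closed hs hc
  · intro y _
    funext i
    exact i.elim0

end

end Vale.Agent.P290.H437
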